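import Vale.Agent.P372.FULL.Fin54

open Matrix
open scoped ComplexOrder

namespace Vale.Agent.P372.FULL

/-- **Main theorem**: an entangled state without distillable key. -/
theorem main :
    ∃ (a b : ℕ) (ρ : Matrix (Fin a × Fin b) (Fin a × Fin b) ℂ), ρ.PosSemidef ∧ ρ.trace = 1 ∧
      ¬ IsSep ρ ∧ ∀ (E : Type) [Fintype E] [DecidableEq E] (Ψ : Matrix (Fin a × Fin b) E ℂ),
        Ψ * Ψᴴ = ρ → distillableKey Ψ = 0 := main54

end Vale.Agent.P372.FULL
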